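import Mathlib

/-!
# Corners and matrix units

If `φ : A → B` is injective and multiplicative (not necessarily unital) and `B` is directly finite,
then so is `A`.  Matrix units in a group algebra of a finite group `H` then give an embedding of
`M₂(F[G])` into `F[G × H]`.
-/

open MonoidAlgebra Matrix

namespace Vale.Agent.Lib.P194

universe u v

theorem df_of_mul_inj {A B : Type*} [Ring A] [Ring B] [IsDedekindFiniteMonoid B] (φ : A → B)
    (hmul : ∀ x y, φ (x * y) = φ x * φ y) (hinj : Function.Injective φ) :
    IsDedekindFiniteMonoid A := by
  constructor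
  intro a b hab
  have hae : φ a * φ 1 = φ a := by rw [← hmul, mul_one]
  have hea : φ 1 * φ a = φ a := by rw [← hmul, one_mul]
  have hbe : φ b * φ 1 = φ b := by rw [← hmul, mul_one]
  have heb : φ 1 * φ b = φ b := by rw [← hmul, one_mul]
  have hee : φ 1 * φ 1 = φ 1 := by rw [← hmul, one_mul]
  have hab' : φ a * φ b = φ 1 := by rw [← hmul, hab]
  have h1 : (φ a + (1 - φ 1)) * (φ b + (1 - φ 1)) = 1 := by
    simp only [add_mul, mul_add, mul_sub, sub_mul, mul_one, one_mul, hab', hae, heb, hee]
    abel
  have h2 := mul_eq_one_symm h1
  have h3 : (φ b + (1 - φ 1)) * (φ a + (1 - φ 1)) = φ b * φ a + (1 - φ 1) := by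
    simp only [add_mul, mul_add, mul_sub, sub_mul, mul_one, one_mul, hea, hbe, hee]
    abel
  rw [h3] at h2
  have h4 : φ b * φ a = φ 1 := by
    have h5 := congrArg (fun t => t - (1 - φ 1)) h2
    simp only [add_sub_cancel_right, sub_sub_cancel] at h5
    exact h5
  exact hinj (by rw [hmul, h4])

section Corner

variable {T S : Type*} [Ring T] [Ring S] (j : T →+* S) (E : Fin 2 → Fin 2 → S)

/-- The map `A ↦ ∑ j(A_{ab}) E_{ab}` for a system of matrix units commuting with `j`. -/
noncomputable def cornerMap (A : Matrix (Fin 2) (Fin 2) T) : S :=
  ∑ a, ∑ b, j (A a b) * E a b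

theorem cornerMap_add (A B : Matrix (Fin 2) (Fin 2) T) :
    cornerMap j E (A + B) = cornerMap j E A + cornerMap j E B := by
  simp [cornerMap, add_mul, Finset.sum_add_distrib]

theorem cornerMap_zero : cornerMap j E 0 = 0 := by
  simp [cornerMap]

theorem cornerMap_mul (hc : ∀ t a b, E a b * j t = j t * E a b)
    (hE : ∀ a b c d, E a b * E c d = if b = c then E a d else 0)
    (A B : Matrix (Fin 2) (Fin 2) T) :
    cornerMap j E (A * B) = cornerMap j E A * cornerMap j E B := by
  have key : ∀ a b c d, j (A a b) * E a b * (j (B c d) * E c d) =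
      if b = c then j (A a b * B b d) * E a d else 0 := by
    intro a b c d
    calc j (A a b) * E a b * (j (B c d) * E c d)
        = j (A a b) * (E a b * j (B c d)) * E c d := by noncomm_ring
      _ = j (A a b) * (j (B c d) * E a b) * E c d := by rw [hc]
      _ = j (A a b) * j (B c d) * (E a b * E c d) := by noncomm_ring
      _ = _ := by
        rw [hE]
        split_ifs with h
        · subst h
          rw [map_mul]
        · rw [mul_zero]
  simp only [cornerMap, Finset.sum_mul, Finset.mul_sum, key, Matrix.mul_apply, map_sum]
  simp only [Fin.sum_univ_two]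
  simp only [Fin.isValue, if_true, zero_ne_one, one_ne_zero, if_false, add_zero, zero_add]
  abel

theorem cornerMap_extract (hc : ∀ t a b, E a b * j t = j t * E a b)
    (hE : ∀ a b c d, E a b * E c d = if b = c then E a d else 0)
    (A : Matrix (Fin 2) (Fin 2) T) (p q : Fin 2) :
    E 0 p * cornerMap j E A * E q 0 = j (A p q) * E 0 0 := by
  have key : ∀ a b, E 0 p * (j (A a b) * E a b) * E q 0 =
      if a = p ∧ b = q then j (A a b) * E 0 0 else 0 := by
    intro a b
    calc E 0 p * (j (A a b) * E a b) * E q 0
        = (E 0 p * j (A a b)) * E a b * E q 0 := by noncomm_ring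
      _ = j (A a b) * (E 0 p * E a b) * E q 0 := by rw [hc]; noncomm_ring
      _ = j (A a b) * ((E 0 p * E a b) * E q 0) := by noncomm_ring
      _ = _ := by
        rw [hE 0 p a b]
        by_cases h : p = a
        · subst h
          rw [if_pos rfl, hE]
          by_cases h' : b = q
          · subst h'
            simp
          · simp [h']
        · have h2 : ¬ (a = p ∧ b = q) := fun h3 => h h3.1.symm
          simp [h, h2]
  simp only [cornerMap, Finset.mul_sum, Finset.sum_mul, key]
  simp [Fin.sum_univ_two]
  fin_cases p <;> fin_cases q <;> simp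

/-- The non-unital ring homomorphism `M₂(T) → S`. -/
noncomputable def cornerHom (hc : ∀ t a b, E a b * j t = j t * E a b)
    (hE : ∀ a b c d, E a b * E c d = if b = c then E a d else 0) :
    Matrix (Fin 2) (Fin 2) T →ₙ+* S where
  toFun := cornerMap j E
  map_mul' := cornerMap_mul j E hc hE
  map_zero' := cornerMap_zero j E
  map_add' := cornerMap_add j E

theorem cornerHom_injective (hc : ∀ t a b, E a b * j t = j t * E a b)
    (hE : ∀ a b c d, E a b * E c d = if b = c then E a d else 0)
    (hinj : ∀ t, j t * E 0 0 = 0 → t = 0) :
    Function.Injective (cornerHom j E hc hE) := by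
  intro A B h
  have h0 : cornerHom j E hc hE (A - B) = 0 := by
    have : A = (A - B) + B := by abel
    have h1 : cornerHom j E hc hE ((A - B) + B) = cornerHom j E hc hE (A - B) +
        cornerHom j E hc hE B := map_add _ _ _
    rw [← this, h] at h1
    have h5 := congrArg (fun t => t - cornerHom j E hc hE B) h1
    simpa using h5.symm
  ext p q
  have h2 := cornerMap_extract j E hc hE (A - B) p q
  have h3 : cornerMap j E (A - B) = 0 := h0
  rw [h3, mul_zero, zero_mul] at h2
  have h4 := hinj _ h2.symm
  simpa [sub_eq_zero] using h4

/-- Entrywise application of a non-unital ring homomorphism is multiplicative. -/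
theorem map_nonunital_mul {ι : Type*} [Fintype ι] {X Y : Type*} [Ring X] [Ring Y] (f : X →ₙ+* Y)
    (M N : Matrix ι ι X) : (M * N).map f = M.map f * N.map f := by
  ext a b
  simp [Matrix.mul_apply, map_sum]

end Corner

section Group

variable {F : Type*} [Field F] {G : Type*} [Group G] {H : Type*} [Group H]

/-- The inclusion `F[G] → F[G × H]`. -/
noncomputable def inlHom (F : Type*) [Field F] (G H : Type*) [Group G] [Group H] :
    MonoidAlgebra F G →+* MonoidAlgebra F (G × H) :=
  mapDomainRingHom F (MonoidHom.inl G H)

/-- The inclusion `F[H] → F[G × H]`. -/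
noncomputable def inrHom (F : Type*) [Field F] (G H : Type*) [Group G] [Group H] :
    MonoidAlgebra F H →+* MonoidAlgebra F (G × H) :=
  mapDomainRingHom F (MonoidHom.inr G H)

theorem inl_single (g : G) (a : F) :
    inlHom F G H (single g a) = single (g, 1) a := by
  simp [inlHom, mapDomain_single]

theorem inr_single (h : H) (a : F) :
    inrHom F G H (single h a) = single (1, h) a := by
  simp [inrHom, mapDomain_single]

theorem inl_inr_comm (t : MonoidAlgebra F G) (u : MonoidAlgebra F H) :
    inrHom F G H u * inlHom F G H t = inlHom F G H t * inrHom F G H u := by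
  induction t using MonoidAlgebra.induction_linear with
  | zero => simp
  | add x y hx hy => simp only [map_add, mul_add, add_mul, hx, hy]
  | single g a =>
    induction u using MonoidAlgebra.induction_linear with
    | zero => simp
    | add x y hx hy => simp only [map_add, mul_add, add_mul, hx, hy]
    | single h b =>
      simp [inl_single, inr_single, single_mul_single, mul_comm]

theorem inl_inr_coeff (t : MonoidAlgebra F G) (u : MonoidAlgebra F H) (g : G) (h : H) :
    (inlHom F G H t * inrHom F G H u).coeff (g, h) = t.coeff g * u.coeff h := by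
  classical
  induction t using MonoidAlgebra.induction_linear with
  | zero => simp
  | add x y hx hy =>
    rw [map_add, add_mul, coeff_add, coeff_add, Finsupp.add_apply, Finsupp.add_apply, hx, hy,
      add_mul]
  | single g0 a =>
    induction u using MonoidAlgebra.induction_linear with
    | zero => simp
    | add x y hx hy =>
      rw [map_add, mul_add, coeff_add, coeff_add, Finsupp.add_apply, Finsupp.add_apply, hx, hy,
        mul_add]
    | single h0 b =>
      rw [inl_single, inr_single, single_mul_single]
      simp only [coeff_single, Finsupp.single_apply, Prod.mk_mul_mk, mul_one, one_mul, Prod.mk.injEq]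
      by_cases h1 : g0 = g <;> by_cases h2 : h0 = h <;> simp [h1, h2]

end Group

end Vale.Agent.Lib.P194
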