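import Vale.Agent.Lib.P194.Units

/-!
# From direct finiteness of all `F[G]` to stable finiteness of all `F[G]`
-/

open MonoidAlgebra Matrix

namespace Vale.Agent.Lib.P194

universe u v

/-- Direct finiteness passes along a bijection of index sets. -/
theorem df_reindex {R : Type*} [Ring R] {ι κ : Type*} [Fintype ι] [Fintype κ] [DecidableEq ι]
    [DecidableEq κ] (e : ι ≃ κ) (h : IsDedekindFiniteMonoid (Matrix κ κ R)) :
    IsDedekindFiniteMonoid (Matrix ι ι R) := by
  refine df_of_mul_inj (B := Matrix κ κ R) (fun A => A.submatrix e.symm e.symm) ?_ ?_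
  · intro x y
    exact (Matrix.submatrix_mul_equiv x y e.symm e.symm e.symm).symm
  · intro A B hAB
    ext a b
    have := congrFun (congrFun hAB (e a)) (e b)
    simpa using this

/-- Direct finiteness passes to corners. -/
theorem df_corner {R : Type*} [Ring R] {α β : Type*} [Fintype α] [Fintype β] [DecidableEq α]
    [DecidableEq β] (h : IsDedekindFiniteMonoid (Matrix (α ⊕ β) (α ⊕ β) R)) :
    IsDedekindFiniteMonoid (Matrix α α R) := by
  refine df_of_mul_inj (B := Matrix (α ⊕ β) (α ⊕ β) R)
    (fun A => Matrix.fromBlocks A 0 0 0) ?_ ?_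
  · intro x y
    simp [Matrix.fromBlocks_multiply]
  · intro A B hAB
    exact (Matrix.fromBlocks_inj.mp hAB).1

/-- The statement that `M_ι(F[G])` is directly finite for all groups `G`. -/
def PP (F : Type v) [Field F] (ι : Type) [Fintype ι] [DecidableEq ι] : Prop :=
  ∀ (G : Type u) [Group G], IsDedekindFiniteMonoid (Matrix ι ι (MonoidAlgebra F G))

theorem PP_reindex {F : Type v} [Field F] {ι κ : Type} [Fintype ι] [Fintype κ] [DecidableEq ι]
    [DecidableEq κ] (e : ι ≃ κ) (h : PP.{u} F κ) : PP.{u} F ι := by
  intro G _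
  exact df_reindex e (h G)

/-- The doubling step: matrix units in `F[H]` embed `M₂(F[G])` into `F[G × H]`. -/
theorem PP_step {F : Type v} [Field F] {ι : Type} [Fintype ι] [DecidableEq ι] (h : PP.{u} F ι) :
    PP.{u} F (ι × Fin 2) := by
  intro G _
  obtain ⟨H, _, e, he, he0⟩ := exists_units F
  let j := inlHom F G H
  let E : Fin 2 → Fin 2 → MonoidAlgebra F (G × H) := fun a b => inrHom F G H (e a b)
  have hc : ∀ t a b, E a b * j t = j t * E a b := fun t a b => inl_inr_comm t (e a b)
  have hE : ∀ a b c d, E a b * E c d = if b = c then E a d else 0 := by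
    intro a b c d
    simp only [E]
    rw [← map_mul, he]
    split_ifs <;> simp
  have hinj : ∀ t, j t * E 0 0 = 0 → t = 0 := by
    intro t ht
    obtain ⟨h0, hh0⟩ : ∃ h0, (e 0 0).coeff h0 ≠ 0 := by
      by_contra hc'
      push Not at hc'
      apply he0
      ext x
      simpa using hc' x
    ext g
    have h1 := congrArg (fun x => x.coeff (g, h0)) ht
    simp only [j, E, inl_inr_coeff, coeff_zero, Finsupp.coe_zero, Pi.zero_apply] at h1
    rcases mul_eq_zero.mp h1 with h2 | h2
    · simpa using h2
    · exact absurd h2 hh0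
  let φ := cornerHom j E hc hE
  have hφ : Function.Injective φ := cornerHom_injective j E hc hE hinj
  have hS : IsDedekindFiniteMonoid (Matrix ι ι (MonoidAlgebra F (G × H))) := h (G × H)
  have h1 : IsDedekindFiniteMonoid (Matrix ι ι (Matrix (Fin 2) (Fin 2) (MonoidAlgebra F G))) := by
    refine df_of_mul_inj (B := Matrix ι ι (MonoidAlgebra F (G × H))) (fun M => M.map φ)
      (map_nonunital_mul φ) ?_
    intro A B hAB
    ext1 a b
    exact hφ (congrFun (congrFun hAB a) b)
  refine df_of_mul_inj (B := Matrix ι ι (Matrix (Fin 2) (Fin 2) (MonoidAlgebra F G)))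
    (fun A => (Matrix.compRingEquiv ι (Fin 2) (MonoidAlgebra F G)).symm A) ?_ ?_
  · intro x y
    exact map_mul _ x y
  · intro x y hxy
    exact (Matrix.compRingEquiv ι (Fin 2) (MonoidAlgebra F G)).symm.injective hxy

theorem PP_one {F : Type v} [Field F]
    (h : ∀ (G : Type u) [Group G], IsDedekindFiniteMonoid (MonoidAlgebra F G)) :
    PP.{u} F (Fin 1) := by
  intro G _
  have := h G
  refine df_of_mul_inj (B := MonoidAlgebra F G) (fun A => A 0 0) ?_ ?_
  · intro x y
    simp [Matrix.mul_apply]
  · intro A B hAB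
    ext1 a b
    have ha : a = 0 := Subsingleton.elim _ _
    have hb : b = 0 := Subsingleton.elim _ _
    subst ha
    subst hb
    exact hAB

theorem PP_two_pow {F : Type v} [Field F]
    (h : ∀ (G : Type u) [Group G], IsDedekindFiniteMonoid (MonoidAlgebra F G)) (m : ℕ) :
    PP.{u} F (Fin (2 ^ m)) := by
  induction m with
  | zero =>
    exact PP_reindex (finCongr (pow_zero 2)) (PP_one h)
  | succ m ih =>
    have h1 := PP_step ih
    refine PP_reindex ?_ h1
    exact (finCongr (pow_succ 2 m)).trans finProdFinEquiv.symm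

/-- **Direct finiteness of all group algebras over `F` implies stable finiteness of all of them.** -/
theorem stablyFinite_of_df {F : Type v} [Field F]
    (h : ∀ (G : Type u) [Group G], IsDedekindFiniteMonoid (MonoidAlgebra F G))
    (G : Type u) [Group G] : IsStablyFiniteRing (MonoidAlgebra F G) := by
  constructor
  intro n
  have hn : n ≤ 2 ^ n := Nat.lt_two_pow_self.le
  have h1 := PP_two_pow h n G
  have h2 : IsDedekindFiniteMonoid (Matrix (Fin n ⊕ Fin (2 ^ n - n)) (Fin n ⊕ Fin (2 ^ n - n))
      (MonoidAlgebra F G)) := by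
    refine df_reindex ?_ h1
    exact finSumFinEquiv.trans (finCongr (Nat.add_sub_cancel' hn))
  exact df_corner h2

end Vale.Agent.Lib.P194
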