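import Vale.Agent.Lib.P194.Iter

/-!
# From the prime field to arbitrary fields of the same characteristic
-/

open MonoidAlgebra Matrix

namespace Vale.Agent.Lib.P194

universe u v w

section Regular

variable (F : Type v) [Field F] (L : Type w) [Field L] [Algebra F L]
variable (G : Type u) [Group G]

/-- The left regular representation of `L` over `F`, extended to group algebras. -/
noncomputable def regularHom {ι : Type} [Fintype ι] [DecidableEq ι] (b : Module.Basis ι F L) :
    MonoidAlgebra L G →+* Matrix ι ι (MonoidAlgebra F G) :=
  MonoidAlgebra.liftNCRingHom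
    ((singleOneRingHom (R := F) (M := G)).mapMatrix.comp
      (Algebra.leftMulMatrix b).toRingHom)
    ((Matrix.scalar ι).toMonoidHom.comp (MonoidAlgebra.of F G))
    (by
      intro x y
      ext1 i k
      simp [Matrix.mul_apply, Matrix.scalar_apply, Matrix.diagonal_apply, single_mul_single])

theorem regularHom_coeff {ι : Type} [Fintype ι] [DecidableEq ι] (b : Module.Basis ι F L)
    (y : MonoidAlgebra L G) (i k : ι) (g : G) :
    (regularHom F L G b y i k).coeff g = Algebra.leftMulMatrix b (y.coeff g) i k := by
  classical
  induction y using MonoidAlgebra.induction_linear with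
  | zero => simp
  | add x y hx hy =>
    rw [map_add, Matrix.add_apply, coeff_add, Finsupp.add_apply, hx, hy, coeff_add,
      Finsupp.add_apply, map_add, Matrix.add_apply]
  | single h c =>
    have e : regularHom F L G b (single h c) i k =
        single h (Algebra.leftMulMatrix b c i k) := by
      simp [regularHom, Matrix.mul_apply, Matrix.scalar_apply, Matrix.diagonal_apply,
        single_mul_single]
    rw [e]
    simp only [coeff_single, Finsupp.single_apply]
    split_ifs <;> simp

theorem regularHom_injective {ι : Type} [Fintype ι] [DecidableEq ι] (b : Module.Basis ι F L) :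
    Function.Injective (regularHom F L G b) := by
  refine (injective_iff_map_eq_zero _).mpr ?_
  intro y hy
  ext g
  have h : Algebra.leftMulMatrix b (y.coeff g) = 0 := by
    ext1 i k
    rw [← regularHom_coeff, hy]
    simp
  have h2 := Algebra.leftMulMatrix_injective b (h.trans (map_zero _).symm)
  simpa using h2

/-- Stable finiteness passes to finite field extensions. -/
theorem stablyFinite_finite_ext [Module.Finite F L]
    (h : IsStablyFiniteRing (MonoidAlgebra F G)) : IsStablyFiniteRing (MonoidAlgebra L G) := by
  let b := Module.finBasis F L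
  exact IsStablyFiniteRing.of_injective (regularHom F L G b) (regularHom_injective F L G b)

end Regular

section Special

/-- An element of `K[G]` whose coefficients lie in a subalgebra lifts to the subalgebra. -/
theorem exists_lift {F : Type v} [Field F] {K : Type w} [Field K] [Algebra F K]
    (A : Subalgebra F K) {G : Type u} [Group G] (x : MonoidAlgebra K G)
    (hx : ∀ g, x.coeff g ∈ A) :
    ∃ y : MonoidAlgebra A G, mapRingHom G A.val.toRingHom y = x := by
  classical
  refine ⟨ofCoeff (Finsupp.onFinset x.coeff.support (fun g => (⟨x.coeff g, hx g⟩ : A)) ?_), ?_⟩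
  · intro g hg
    rw [Finsupp.mem_support_iff]
    intro h0
    apply hg
    ext
    simpa using h0
  · ext g
    simp

/-- The specialisation argument: if all group algebras over finite extensions of `F` are stably
finite, so are those over any extension `K` of `F`. -/
theorem stablyFinite_specialize {F : Type v} [Field F] {K : Type w} [Field K] [Algebra F K]
    (G : Type u) [Group G]
    (hfin : ∀ (L : Type w) [Field L] [Algebra F L] [Module.Finite F L],
      IsStablyFiniteRing (MonoidAlgebra L G)) :
    IsStablyFiniteRing (MonoidAlgebra K G) := by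
  classical
  constructor
  intro n
  constructor
  intro a b hab
  -- the finite set of coefficients
  let s : Finset K := Finset.univ.biUnion fun i : Fin n => Finset.univ.biUnion fun k : Fin n =>
    ((a i k).coeff.support.image (a i k).coeff) ∪ ((b i k).coeff.support.image (b i k).coeff)
  let A : Subalgebra F K := Algebra.adjoin F (s : Set K)
  have hcoef : ∀ (i k : Fin n) (g : G), (a i k).coeff g ∈ A ∧ (b i k).coeff g ∈ A := by
    intro i k g
    have hmem : ∀ x : K, x ∈ s → x ∈ A := fun x hx => Algebra.subset_adjoin (by exact_mod_cast hx)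
    constructor
    · by_cases hg : g ∈ (a i k).coeff.support
      · apply hmem
        simp only [s, Finset.mem_biUnion, Finset.mem_union, Finset.mem_image, Finset.mem_univ,
          true_and]
        exact ⟨i, k, Or.inl ⟨g, hg, rfl⟩⟩
      · rw [Finsupp.notMem_support_iff.mp hg]
        exact A.zero_mem
    · by_cases hg : g ∈ (b i k).coeff.support
      · apply hmem
        simp only [s, Finset.mem_biUnion, Finset.mem_union, Finset.mem_image, Finset.mem_univ,
          true_and]
        exact ⟨i, k, Or.inr ⟨g, hg, rfl⟩⟩
      · rw [Finsupp.notMem_support_iff.mp hg]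
        exact A.zero_mem
  -- lifts
  let ι : MonoidAlgebra A G →+* MonoidAlgebra K G := mapRingHom G A.val.toRingHom
  have hι : Function.Injective ι := by
    refine (injective_iff_map_eq_zero _).mpr ?_
    intro y hy
    ext g
    have := congrArg (fun x => x.coeff g) hy
    simpa [ι] using this
  choose a' ha' using fun i k => exists_lift A (a i k) (fun g => (hcoef i k g).1)
  choose b' hb' using fun i k => exists_lift A (b i k) (fun g => (hcoef i k g).2)
  let A' : Matrix (Fin n) (Fin n) (MonoidAlgebra A G) := Matrix.of a'
  let B' : Matrix (Fin n) (Fin n) (MonoidAlgebra A G) := Matrix.of b'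
  have hA' : ι.mapMatrix A' = a := by
    ext1 i k
    exact ha' i k
  have hB' : ι.mapMatrix B' = b := by
    ext1 i k
    exact hb' i k
  have hιm : Function.Injective (RingHom.mapMatrix (m := Fin n) ι) := by
    intro x y hxy
    ext1 i k
    exact hι (congrFun (congrFun hxy i) k)
  have hAB' : A' * B' = 1 := by
    apply hιm
    rw [map_mul, hA', hB', hab, map_one]
  -- it suffices to show the reverse identity over `A`
  suffices hBA' : B' * A' = 1 by
    have := congrArg ι.mapMatrix hBA'
    rwa [map_mul, hA', hB', map_one] at this
  by_contra hne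
  obtain ⟨i, k, hik⟩ : ∃ i k, (B' * A' - 1) i k ≠ 0 := by
    by_contra hc
    push Not at hc
    apply hne
    have : B' * A' - 1 = 0 := by
      ext1 i k
      exact hc i k
    exact sub_eq_zero.mp this
  obtain ⟨g, hg⟩ : ∃ g, ((B' * A' - 1) i k).coeff g ≠ 0 := by
    by_contra hc
    push Not at hc
    apply hik
    exact MonoidAlgebra.ext (Finsupp.ext fun g => hc g)
  set d : A := ((B' * A' - 1) i k).coeff g with hd
  -- a maximal ideal avoiding `d`
  have hfg : Algebra.FiniteType F A :=
    (Subalgebra.fg_iff_finiteType A).mp ⟨s, rfl⟩
  have hjac : IsJacobsonRing A := isJacobsonRing_of_finiteType (A := F) (B := A)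
  have hrad : (⊥ : Ideal A).IsRadical := by
    exact (Ideal.isPrime_bot).isRadical
  have hbot : (⊥ : Ideal A).jacobson = ⊥ := hjac.out hrad
  obtain ⟨m, hm, hdm⟩ : ∃ m : Ideal A, m.IsMaximal ∧ d ∉ m := by
    by_contra hc
    push Not at hc
    have : d ∈ (⊥ : Ideal A).jacobson := by
      rw [Ideal.jacobson, Ideal.mem_sInf]
      intro J hJ
      exact hc J hJ.2
    rw [hbot] at this
    exact hg (by simpa using this)
  -- the residue field
  let _ : Field (A ⧸ m) := Ideal.Quotient.field m
  have hft : Algebra.FiniteType F (A ⧸ m) :=
    Algebra.FiniteType.of_surjective (Ideal.Quotient.mkₐ F m) (Ideal.Quotient.mkₐ_surjective F m)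
  have hmf : Module.Finite F (A ⧸ m) := finite_of_finite_type_of_isJacobsonRing F (A ⧸ m)
  have hSF : IsStablyFiniteRing (MonoidAlgebra (A ⧸ m) G) := hfin (A ⧸ m)
  let π : MonoidAlgebra A G →+* MonoidAlgebra (A ⧸ m) G := mapRingHom G (Ideal.Quotient.mk m)
  have h1 : π.mapMatrix A' * π.mapMatrix B' = 1 := by
    rw [← map_mul, hAB', map_one]
  have h2 : π.mapMatrix B' * π.mapMatrix A' = 1 := mul_eq_one_symm h1
  have h3 : π.mapMatrix (B' * A' - 1) = 0 := by
    rw [map_sub, map_mul, h2, map_one, sub_self]
  have h4 : π ((B' * A' - 1) i k) = 0 := congrFun (congrFun h3 i) k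
  have h5 := congrArg (fun x => x.coeff g) h4
  simp only [π, coeff_mapRingHom, coeff_zero, Finsupp.coe_zero, Pi.zero_apply] at h5
  exact hdm (Ideal.Quotient.eq_zero_iff_mem.mp h5)

end Special

end Vale.Agent.Lib.P194
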