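import Vale.Agent.Lib.P194.Corner

/-!
# Explicit matrix units in the group algebras of the dihedral groups of orders 8 and 6
-/

open MonoidAlgebra Matrix

namespace Vale.Agent.Lib.P194

universe u v

section Tab

variable {F : Type*} [Field F] {H : Type*} [Group H] [Fintype H]

/-- The element of `F[H]` with integer coefficient table `f`. -/
noncomputable def tab (F : Type*) [Field F] {H : Type*} [Group H] [Fintype H] (f : H → ℤ) :
    MonoidAlgebra F H :=
  ∑ h, single h (f h : F)

theorem tab_coeff (f : H → ℤ) (h : H) : (tab F f).coeff h = (f h : F) := by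
  classical
  simp [tab, coeff_sum, Finsupp.finsetSum_apply, coeff_single, Finsupp.single_apply]

theorem tab_mul_coeff (f g : H → ℤ) (h : H) :
    (tab F f * tab F g).coeff h = ((∑ x, f x * g (x⁻¹ * h) : ℤ) : F) := by
  classical
  have e : tab F f * tab F g = ∑ x, ∑ y, single (x * y) ((f x : F) * (g y : F)) := by
    simp [tab, Finset.sum_mul_sum, single_mul_single]
  rw [e]
  simp only [coeff_sum, Finsupp.finsetSum_apply, coeff_single, Finsupp.single_apply]
  push_cast
  refine Finset.sum_congr rfl fun x _ => ?_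
  rw [Finset.sum_eq_single (x⁻¹ * h)]
  · simp
  · intro y _ hy
    rw [if_neg]
    intro hxy
    apply hy
    rw [← hxy]
    group
  · intro hn
    exact absurd (Finset.mem_univ _) hn

theorem units_of_table (f : Fin 2 → Fin 2 → H → ℤ) (D : ℤ) (hD : (D : F) ≠ 0)
    (hrel : ∀ i j k l h, ∑ x, f i j x * f k l (x⁻¹ * h) = D * (if j = k then f i l h else 0))
    (h1 : ∃ h, (f 0 0 h : F) ≠ 0) :
    ∃ e : Fin 2 → Fin 2 → MonoidAlgebra F H,
      (∀ i j k l, e i j * e k l = if j = k then e i l else 0) ∧ e 0 0 ≠ 0 := by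
  refine ⟨fun i j => ((D : F)⁻¹) • tab F (f i j), ?_, ?_⟩
  · intro i j k l
    have e1 : ((D : F)⁻¹) • tab F (f i j) * ((D : F)⁻¹) • tab F (f k l) =
        ((D : F)⁻¹ * (D : F)⁻¹) • (tab F (f i j) * tab F (f k l)) := by
      rw [smul_mul_smul_comm]
    simp only []
    rw [e1]
    ext h
    rw [coeff_smul_apply, tab_mul_coeff, hrel]
    by_cases hjk : j = k
    · rw [if_pos hjk, if_pos hjk, coeff_smul_apply, tab_coeff]
      simp only [smul_eq_mul]
      push_cast
      field_simp
    · rw [if_neg hjk, if_neg hjk]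
      simp
  · obtain ⟨h, hh⟩ := h1
    intro h0
    have h2 := congrArg (fun x => x.coeff h) h0
    simp only [coeff_smul_apply, tab_coeff, smul_eq_mul, coeff_zero, Finsupp.coe_zero,
      Pi.zero_apply] at h2
    rcases mul_eq_zero.mp h2 with h3 | h3
    · exact hD (inv_eq_zero.mp h3)
    · exact hh h3

end Tab

/-- Coefficient tables on the dihedral group of order 8. -/
def tb4 (a b : Fin 4 → ℤ) : DihedralGroup 4 → ℤ
  | .r i => a i
  | .sr i => b i

/-- Matrix units (times four) in the group ring of the dihedral group of order 8. -/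
def f4 : Fin 2 → Fin 2 → DihedralGroup 4 → ℤ
  | 0, 0 => tb4 ![1,0,-1,0] ![1,0,-1,0]
  | 1, 0 => tb4 ![0,1,0,-1] ![0,-1,0,1]
  | 0, 1 => tb4 ![0,-1,0,1] ![0,-1,0,1]
  | 1, 1 => tb4 ![1,0,-1,0] ![-1,0,1,0]

theorem f4_rel : ∀ (i j k l : Fin 2) (h : DihedralGroup 4),
    ∑ x, f4 i j x * f4 k l (x⁻¹ * h) = 4 * (if j = k then f4 i l h else 0) := by
  decide +kernel

/-- Coefficient tables on the dihedral group of order 6. -/
def tb3 (a b : Fin 3 → ℤ) : DihedralGroup 3 → ℤ
  | .r i => a i
  | .sr i => b i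

/-- Matrix units (times three) in the group ring of the dihedral group of order 6. -/
def f3 : Fin 2 → Fin 2 → DihedralGroup 3 → ℤ
  | 0, 0 => tb3 ![1,-1,0] ![-1,1,0]
  | 1, 1 => tb3 ![1,0,-1] ![1,-1,0]
  | 0, 1 => tb3 ![0,-1,1] ![0,1,-1]
  | 1, 0 => tb3 ![0,1,-1] ![1,0,-1]

theorem f3_rel : ∀ (i j k l : Fin 2) (h : DihedralGroup 3),
    ∑ x, f3 i j x * f3 k l (x⁻¹ * h) = 3 * (if j = k then f3 i l h else 0) := by
  decide +kernel

theorem f4_one : f4 0 0 1 = 1 := by decide +kernel

theorem f3_one : f3 0 0 1 = 1 := by decide +kernel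

/-- Every field has a finite group `H` whose group algebra contains a system of `2 × 2` matrix
units: the dihedral group of order 8 when `2 ≠ 0`, and that of order 6 when `3 ≠ 0`. -/
theorem exists_units (F : Type*) [Field F] :
    ∃ (H : Type) (_ : Group H) (e : Fin 2 → Fin 2 → MonoidAlgebra F H),
      (∀ i j k l, e i j * e k l = if j = k then e i l else 0) ∧ e 0 0 ≠ 0 := by
  by_cases h2 : (2 : F) = 0
  · refine ⟨DihedralGroup 3, inferInstance, ?_⟩
    have hD : ((3 : ℤ) : F) ≠ 0 := by
      have : ((3 : ℤ) : F) = 1 := by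
        have : (3 : F) = 2 + 1 := by norm_num
        push_cast
        rw [this, h2, zero_add]
      rw [this]
      exact one_ne_zero
    refine units_of_table f3 3 hD f3_rel ⟨1, ?_⟩
    rw [f3_one]
    simp
  · refine ⟨DihedralGroup 4, inferInstance, ?_⟩
    have hD : ((4 : ℤ) : F) ≠ 0 := by
      have : ((4 : ℤ) : F) = 2 * 2 := by
        push_cast
        norm_num
      rw [this]
      exact mul_ne_zero h2 h2
    refine units_of_table f4 4 hD f4_rel ⟨1, ?_⟩
    rw [f4_one]
    simp

end Vale.Agent.Lib.P194
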